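import Vale.Agent.P101.Defs

/-!
Dimension drop algebras over `ℂ`: an element which vanishes at no point generates the whole algebra
as an ideal, and tracial functionals only see the trace function.
-/

set_option maxSynthPendingDepth 3

open scoped ComplexOrder Matrix
open unitInterval
open Vale.Agent.P101.Drop (dropAlg)

noncomputable section

namespace Vale.Agent.P101.Limit

variable {p q : ℕ}

/-- The index type of the fibres. -/
abbrev Ix (p q : ℕ) : Type := Fin p × Fin q

/-- The value at a point, as a matrix. -/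
def val (f : dropAlg p q ℂ) (t : I) : Matrix (Ix p q) (Ix p q) ℂ :=
  CStarMatrix.ofMatrix.symm ((f : C(I, CStarMatrix (Ix p q) (Ix p q) ℂ)) t)

theorem val_ext {f g : dropAlg p q ℂ} (h : ∀ t, val f t = val g t) : f = g :=
  Subtype.ext (ContinuousMap.ext fun t => CStarMatrix.ofMatrix.symm.injective (h t))

@[simp] theorem val_mul (f g : dropAlg p q ℂ) (t : I) : val (f * g) t = val f t * val g t := rfl
@[simp] theorem val_add (f g : dropAlg p q ℂ) (t : I) : val (f + g) t = val f t + val g t := rfl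
@[simp] theorem val_sub (f g : dropAlg p q ℂ) (t : I) : val (f - g) t = val f t - val g t := rfl
@[simp] theorem val_smul (c : ℂ) (f : dropAlg p q ℂ) (t : I) : val (c • f) t = c • val f t := rfl
@[simp] theorem val_zero (t : I) : val (0 : dropAlg p q ℂ) t = 0 := rfl
@[simp] theorem val_one (t : I) : val (1 : dropAlg p q ℂ) t = 1 := rfl
@[simp] theorem val_star (f : dropAlg p q ℂ) (t : I) : val (star f) t = (val f t)ᴴ := rfl

@[simp] theorem val_sum {ι : Type*} (s : Finset ι) (f : ι → dropAlg p q ℂ) (t : I) :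
    val (∑ i ∈ s, f i) t = ∑ i ∈ s, val (f i) t := by
  classical
  induction s using Finset.induction_on with
  | empty => simp
  | insert i s hi ih => simp [Finset.sum_insert hi, ih]

theorem continuous_val (f : dropAlg p q ℂ) (a b : Ix p q) : Continuous fun t => val f t a b :=
  (continuous_apply b).comp
    ((continuous_apply a).comp (f : C(I, CStarMatrix (Ix p q) (Ix p q) ℂ)).continuous)

theorem val_zero_left (f : dropAlg p q ℂ) :
    ∃ m : Fin p → Fin p → ℂ, ∀ i k j l, val f 0 (i, k) (j, l) = if k = l then m i j else 0 :=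
  ⟨f.2.1.choose, fun i k j l => f.2.1.choose_spec (i, k) (j, l)⟩

theorem val_one_right (f : dropAlg p q ℂ) :
    ∃ m : Fin q → Fin q → ℂ, ∀ i k j l, val f 1 (i, k) (j, l) = if i = j then m k l else 0 :=
  ⟨f.2.2.choose, fun i k j l => f.2.2.choose_spec (i, k) (j, l)⟩

/-- An element given by its entries. -/
def el (F : I → Matrix (Ix p q) (Ix p q) ℂ) (hc : ∀ a b, Continuous fun t => F t a b)
    (hl : ∃ m : Fin p → Fin p → ℂ, ∀ i k j l, F 0 (i, k) (j, l) = if k = l then m i j else 0)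
    (hr : ∃ m : Fin q → Fin q → ℂ, ∀ i k j l, F 1 (i, k) (j, l) = if i = j then m k l else 0) :
    dropAlg p q ℂ :=
  ⟨⟨fun t => CStarMatrix.ofMatrix (F t), continuous_pi fun a => continuous_pi fun b => hc a b⟩,
    ⟨hl.choose, fun a b => hl.choose_spec a.1 a.2 b.1 b.2⟩,
    ⟨hr.choose, fun a b => hr.choose_spec a.1 a.2 b.1 b.2⟩⟩

@[simp] theorem val_el (F : I → Matrix (Ix p q) (Ix p q) ℂ) (hc hl hr) (t : I) :
    val (el F hc hl hr) t = F t := rfl

/-- A scalar function. -/
def sca (φ : C(I, ℂ)) : dropAlg p q ℂ :=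
  el (fun t => φ t • 1)
    (fun a b => by simp only [Matrix.smul_apply, smul_eq_mul]; fun_prop)
    ⟨fun i j => if i = j then φ 0 else 0, fun i k j l => by
      by_cases h : i = j <;> by_cases h' : k = l <;> simp [h, h', Matrix.one_apply]⟩
    ⟨fun k l => if k = l then φ 1 else 0, fun i k j l => by
      by_cases h : i = j <;> by_cases h' : k = l <;> simp [h, h', Matrix.one_apply]⟩

@[simp] theorem val_sca (φ : C(I, ℂ)) (t : I) :
    val (sca φ : dropAlg p q ℂ) t = φ t • 1 := rfl

/-- A function vanishing at both ends, placed at one entry. -/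
def corner (φ : C(I, ℂ)) (h0 : φ 0 = 0) (h1 : φ 1 = 0) (a b : Ix p q) : dropAlg p q ℂ :=
  el (fun t => Matrix.single a b (φ t))
    (fun c d => by
      simp only [Matrix.single_apply]
      split_ifs <;> fun_prop)
    ⟨0, fun i k j l => by simp [h0]⟩ ⟨0, fun i k j l => by simp [h1]⟩

@[simp] theorem val_corner (φ : C(I, ℂ)) (h0 : φ 0 = 0) (h1 : φ 1 = 0) (a b : Ix p q) (t : I) :
    val (corner φ h0 h1 a b) t = Matrix.single a b (φ t) := rfl

/-- A matrix unit of the left factor. -/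
def eL (i j : Fin p) : Matrix (Ix p q) (Ix p q) ℂ :=
  Matrix.of fun a b => if a.1 = i ∧ b.1 = j ∧ a.2 = b.2 then 1 else 0

/-- A matrix unit of the right factor. -/
def eR (k l : Fin q) : Matrix (Ix p q) (Ix p q) ℂ :=
  Matrix.of fun a b => if a.2 = k ∧ b.2 = l ∧ a.1 = b.1 then 1 else 0

theorem eL_mul (i j : Fin p) (M : Matrix (Ix p q) (Ix p q) ℂ) (a b : Ix p q) :
    ((eL i j : Matrix (Ix p q) (Ix p q) ℂ) * M) a b = if a.1 = i then M (j, a.2) b else 0 := by
  rw [Matrix.mul_apply, Finset.sum_eq_single (j, a.2)]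
  · by_cases h : a.1 = i <;> simp [eL, h]
  · rintro ⟨c, k⟩ - hne
    have : ¬ (a.1 = i ∧ c = j ∧ a.2 = k) := fun h => hne (by rw [h.2.1, h.2.2])
    simp [eL, this]
  · simp

theorem mul_eL (i j : Fin p) (M : Matrix (Ix p q) (Ix p q) ℂ) (a b : Ix p q) :
    (M * (eL i j : Matrix (Ix p q) (Ix p q) ℂ)) a b = if b.1 = j then M a (i, b.2) else 0 := by
  rw [Matrix.mul_apply, Finset.sum_eq_single (i, b.2)]
  · by_cases h : b.1 = j <;> simp [eL, h]
  · rintro ⟨c, k⟩ - hne
    have : ¬ (c = i ∧ b.1 = j ∧ k = b.2) := fun h => hne (by rw [h.1, h.2.2])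
    simp [eL, this]
  · simp

theorem eR_mul (k l : Fin q) (M : Matrix (Ix p q) (Ix p q) ℂ) (a b : Ix p q) :
    ((eR k l : Matrix (Ix p q) (Ix p q) ℂ) * M) a b = if a.2 = k then M (a.1, l) b else 0 := by
  rw [Matrix.mul_apply, Finset.sum_eq_single (a.1, l)]
  · by_cases h : a.2 = k <;> simp [eR, h]
  · rintro ⟨c, d⟩ - hne
    have : ¬ (a.2 = k ∧ d = l ∧ a.1 = c) := fun h => hne (by rw [h.2.1, h.2.2])
    simp [eR, this]
  · simp

theorem mul_eR (k l : Fin q) (M : Matrix (Ix p q) (Ix p q) ℂ) (a b : Ix p q) :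
    (M * (eR k l : Matrix (Ix p q) (Ix p q) ℂ)) a b = if b.2 = l then M a (b.1, k) else 0 := by
  rw [Matrix.mul_apply, Finset.sum_eq_single (b.1, k)]
  · by_cases h : b.2 = l <;> simp [eR, h]
  · rintro ⟨c, d⟩ - hne
    have : ¬ (d = k ∧ b.2 = l ∧ c = b.1) := fun h => hne (by rw [h.1, h.2.2])
    simp [eR, this]
  · simp

/-- Matrix units of the left factor, fading towards `1`. -/
def lU (i j : Fin p) : dropAlg p q ℂ :=
  el (fun t => ((1 - (t : ℝ) : ℝ) : ℂ) • eL i j)
    (fun a b => by simp only [Matrix.smul_apply, smul_eq_mul]; fun_prop)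
    ⟨fun a b => if a = i ∧ b = j then 1 else 0, fun a k b l => by
      simp only [eL, Matrix.smul_apply, Matrix.of_apply, smul_eq_mul, Set.Icc.coe_zero]
      by_cases h : k = l <;> simp [h]⟩
    ⟨0, fun a k b l => by simp⟩

/-- Matrix units of the right factor, fading towards `0`. -/
def rU (k l : Fin q) : dropAlg p q ℂ :=
  el (fun t => (((t : ℝ)) : ℂ) • eR k l)
    (fun a b => by simp only [Matrix.smul_apply, smul_eq_mul]; fun_prop)
    ⟨0, fun a c b d => by simp⟩
    ⟨fun a b => if a = k ∧ b = l then 1 else 0, fun a c b d => by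
      simp only [eR, Matrix.smul_apply, Matrix.of_apply, smul_eq_mul, Set.Icc.coe_one]
      by_cases h : a = b <;> simp [h]⟩

theorem lU_sandwich (H : dropAlg p q ℂ) (t : I) (a b : Ix p q) :
    val (∑ i, ∑ j, lU j i * H * lU i j) t a b =
      ((1 - (t : ℝ) : ℝ) : ℂ) ^ 2 *
        (if a.1 = b.1 then ∑ i, val H t (i, a.2) (i, b.2) else 0) := by
  simp only [val_sum, val_mul, lU, val_el, Matrix.sum_apply, Matrix.smul_mul, Matrix.mul_smul,
    Matrix.smul_apply, smul_eq_mul, mul_eL, eL_mul, mul_ite, mul_zero]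
  by_cases h : a.1 = b.1
  · simp [h, Finset.mul_sum, pow_two, mul_assoc]
  · rw [if_neg h]
    refine Finset.sum_eq_zero fun i _ => Finset.sum_eq_zero fun j _ => ?_
    split_ifs with h1 h2 <;> simp_all

theorem rU_sandwich (H : dropAlg p q ℂ) (t : I) (a b : Ix p q) :
    val (∑ k, ∑ l, rU l k * H * rU k l) t a b =
      (((t : ℝ)) : ℂ) ^ 2 * (if a.2 = b.2 then ∑ k, val H t (a.1, k) (b.1, k) else 0) := by
  simp only [val_sum, val_mul, rU, val_el, Matrix.sum_apply, Matrix.smul_mul, Matrix.mul_smul,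
    Matrix.smul_apply, smul_eq_mul, mul_eR, eR_mul, mul_ite, mul_zero]
  by_cases h : a.2 = b.2
  · simp [h, Finset.mul_sum, pow_two, mul_assoc]
  · rw [if_neg h]
    refine Finset.sum_eq_zero fun i _ => Finset.sum_eq_zero fun j _ => ?_
    split_ifs with h1 h2 <;> simp_all

/-- A function factors through two functions with no new zeros. -/
theorem exists_factor (φ : C(I, ℂ)) :
    ∃ u v : C(I, ℂ), (∀ t, φ t = 0 → u t = 0) ∧ (∀ t, φ t = 0 → v t = 0) ∧
      ∀ t, u t * v t = φ t := by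
  have hu : Continuous fun t => ((Real.sqrt ‖φ t‖ : ℝ) : ℂ) := by fun_prop
  have hv : Continuous fun t => φ t / ((Real.sqrt ‖φ t‖ : ℝ) : ℂ) := by
    rw [continuous_iff_continuousAt]
    intro t
    by_cases h : φ t = 0
    · have hn : ∀ s, ‖φ s / ((Real.sqrt ‖φ s‖ : ℝ) : ℂ)‖ = Real.sqrt ‖φ s‖ := fun s => by
        rw [norm_div, Complex.norm_real, Real.norm_of_nonneg (Real.sqrt_nonneg _),
          Real.div_sqrt]
      rw [ContinuousAt, h, zero_div, tendsto_zero_iff_norm_tendsto_zero]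
      simp only [hn]
      exact (Real.continuous_sqrt.comp φ.continuous.norm).tendsto' t 0 (by simp [h])
    · refine φ.continuous.continuousAt.div hu.continuousAt ?_
      simpa [Real.sqrt_eq_zero (norm_nonneg _)] using h
  refine ⟨⟨_, hu⟩, ⟨_, hv⟩, fun t h => by simp [h], fun t h => by simp [h], fun t => ?_⟩
  by_cases h : φ t = 0
  · simp [h]
  · have : ((Real.sqrt ‖φ t‖ : ℝ) : ℂ) ≠ 0 := by
      simpa [Real.sqrt_eq_zero (norm_nonneg _)] using h
    simp only [ContinuousMap.coe_mk]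
    field_simp

/-- An element vanishing at both ends, as a sum of its entries. -/
theorem eq_sum_corner (g : dropAlg p q ℂ) (h0 : val g 0 = 0) (h1 : val g 1 = 0) :
    g = ∑ a, ∑ b, corner ⟨fun t => val g t a b, continuous_val g a b⟩
      (by simp [h0]) (by simp [h1]) a b := by
  refine val_ext fun t => ?_
  simp only [val_sum, val_corner, ContinuousMap.coe_mk]
  exact (Matrix.matrix_eq_sum_single (val g t))

/-- Products of a finite family around `H`. -/
def IsSandwich (H z : dropAlg p q ℂ) : Prop :=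
  ∃ (m : ℕ) (L R : Fin m → dropAlg p q ℂ), z = ∑ k, L k * H * R k

theorem IsSandwich.of_fintype {ι : Type*} [Fintype ι] {H z : dropAlg p q ℂ}
    (L R : ι → dropAlg p q ℂ) (h : z = ∑ k, L k * H * R k) : IsSandwich H z :=
  ⟨Fintype.card ι, L ∘ (Fintype.equivFin ι).symm, R ∘ (Fintype.equivFin ι).symm,
    h.trans ((Fintype.equivFin ι).symm.sum_comp fun k => L k * H * R k).symm⟩

/-- An element with nowhere vanishing trace generates the algebra as an ideal. -/
theorem one_isSandwich (H : dropAlg p q ℂ) (hH : ∀ t, (val H t).trace ≠ 0) :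
    IsSandwich H 1 := by
  set T : I → ℂ := fun t => (val H t).trace with hT
  have hTc : Continuous T := by
    simp only [hT, Matrix.trace, Matrix.diag]
    exact continuous_finsetSum _ fun a _ => continuous_val H a a
  have hp : (p : ℂ) ≠ 0 := by
    rintro h
    obtain rfl : p = 0 := by exact_mod_cast h
    exact hH 0 (by simp [Matrix.trace, Fintype.sum_prod_type])
  have hq : (q : ℂ) ≠ 0 := by
    rintro h
    obtain rfl : q = 0 := by exact_mod_cast h
    exact hH 0 (by simp [Matrix.trace, Fintype.sum_prod_type])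
  set c0 : ℂ := (q : ℂ) / T 0 with hc0
  set c1 : ℂ := (p : ℂ) / T 1 with hc1
  set r : dropAlg p q ℂ := 1 - c0 • (∑ i, ∑ j, lU j i * H * lU i j)
    - c1 • (∑ k, ∑ l, rU l k * H * rU k l) with hr
  have r0 : val r 0 = 0 := by
    obtain ⟨m, hm⟩ := val_zero_left H
    have hT0 : T 0 = (q : ℂ) * ∑ i, m i i := by
      simp [hT, Matrix.trace, Fintype.sum_prod_type, hm, Finset.mul_sum]
    ext ⟨i, k⟩ ⟨j, l⟩
    have := hH 0
    change T 0 ≠ 0 at this
    simp only [hr, val_sub, val_smul, val_one, Matrix.sub_apply, Matrix.smul_apply, lU_sandwich,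
      rU_sandwich, hm, Matrix.one_apply, Matrix.zero_apply, Prod.mk.injEq, Set.Icc.coe_zero,
      smul_eq_mul]
    rw [hT0] at this
    rw [hc0, hT0]
    have hS : ∑ i, m i i ≠ 0 := right_ne_zero_of_mul this
    by_cases h : i = j <;> by_cases h' : k = l <;> simp [h, h', hS]
    all_goals (field_simp; ring)
  have r1 : val r 1 = 0 := by
    obtain ⟨m, hm⟩ := val_one_right H
    have hT1 : T 1 = (p : ℂ) * ∑ k, m k k := by
      simp [hT, Matrix.trace, Fintype.sum_prod_type, hm, Finset.mul_sum]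
    ext ⟨i, k⟩ ⟨j, l⟩
    have := hH 1
    change T 1 ≠ 0 at this
    simp only [hr, val_sub, val_smul, val_one, Matrix.sub_apply, Matrix.smul_apply, lU_sandwich,
      rU_sandwich, hm, Matrix.one_apply, Matrix.zero_apply, Prod.mk.injEq, Set.Icc.coe_one,
      smul_eq_mul]
    rw [hT1] at this
    rw [hc1, hT1]
    have hS : ∑ k, m k k ≠ 0 := right_ne_zero_of_mul this
    by_cases h : i = j <;> by_cases h' : k = l <;> simp [h, h', hS]
    all_goals (field_simp; ring)
  choose u v hu hv huv using fun a b => exists_factor ⟨fun t => val r t a b, continuous_val r a b⟩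
  set Lr : Ix p q × Ix p q × Ix p q → dropAlg p q ℂ := fun x =>
    corner ⟨fun t => u x.1 x.2.1 t / T t, (u x.1 x.2.1).continuous.div hTc hH⟩
      (by simp [hu x.1 x.2.1 0 (by simp [r0])]) (by simp [hu x.1 x.2.1 1 (by simp [r1])]) x.1 x.2.2
  set Rr : Ix p q × Ix p q × Ix p q → dropAlg p q ℂ := fun x =>
    corner (v x.1 x.2.1)
      (hv x.1 x.2.1 0 (by simp [r0])) (hv x.1 x.2.1 1 (by simp [r1])) x.2.2 x.2.1
  have hsum : r = ∑ x, Lr x * H * Rr x := by
    refine val_ext fun t => ?_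
    have hx : ∀ x : Ix p q × Ix p q × Ix p q, val (Lr x * H * Rr x) t = Matrix.single x.1 x.2.1
        (u x.1 x.2.1 t / T t * val H t x.2.2 x.2.2 * v x.1 x.2.1 t) := fun x => by
      simp only [Lr, Rr, val_mul, val_corner, ContinuousMap.coe_mk, Matrix.single_mul_mul_single]
    ext a b
    simp only [val_sum, hx, Matrix.sum_apply, Matrix.single_apply, Fintype.sum_prod_type]
    rw [← Fintype.sum_prod_type (f := fun a' : Ix p q => ∑ b1, ∑ b2, ∑ c1, ∑ c2,
      if a' = a ∧ (b1, b2) = b then u a' (b1, b2) t / T t * val H t (c1, c2) (c1, c2) *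
        v a' (b1, b2) t else 0)]
    rw [Finset.sum_eq_single a (fun a' _ h => Finset.sum_eq_zero fun b1 _ =>
      Finset.sum_eq_zero fun b2 _ => Finset.sum_eq_zero fun c1 _ => Finset.sum_eq_zero fun c2 _ =>
      if_neg fun h' => h h'.1) (by simp)]
    rw [← Fintype.sum_prod_type (f := fun b' : Ix p q => ∑ c1, ∑ c2,
      if a = a ∧ b' = b then u a b' t / T t * val H t (c1, c2) (c1, c2) * v a b' t else 0)]
    rw [Finset.sum_eq_single b (fun b' _ h => Finset.sum_eq_zero fun c1 _ =>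
      Finset.sum_eq_zero fun c2 _ => if_neg fun h' => h h'.2) (by simp)]
    simp only [and_self, if_true]
    rw [← Fintype.sum_prod_type (f := fun c : Ix p q =>
      u a b t / T t * val H t c c * v a b t), ← Finset.sum_mul, ← Finset.mul_sum]
    change _ = u a b t / T t * T t * v a b t
    rw [div_mul_cancel₀ _ (show T t ≠ 0 from hH t), huv]
    rfl
  refine IsSandwich.of_fintype
    (ι := (Fin p × Fin p) ⊕ (Fin q × Fin q) ⊕ (Ix p q × Ix p q × Ix p q))
    (Sum.elim (fun x => c0 • lU x.2 x.1) (Sum.elim (fun x => c1 • rU x.2 x.1) Lr))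
    (Sum.elim (fun x => lU x.1 x.2) (Sum.elim (fun x => rU x.1 x.2) Rr)) ?_
  simp only [Fintype.sum_sum_type, Sum.elim_inl, Sum.elim_inr, ← hsum, smul_mul_assoc,
    ← Finset.smul_sum, Fintype.sum_prod_type (f := fun x : Fin p × Fin p => lU x.2 x.1 * H * lU x.1 x.2),
    Fintype.sum_prod_type (f := fun x : Fin q × Fin q => rU x.2 x.1 * H * rU x.1 x.2)]
  rw [hr]
  abel

section Trace

variable (τ : dropAlg p q ℂ →ₗ[ℂ] ℂ) (hτ : ∀ x y, τ (x * y) = τ (y * x))

include hτ in
/-- A tracial functional kills trace zero functions vanishing at both ends. -/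
theorem trace_zero_interior (g : dropAlg p q ℂ) (h0 : val g 0 = 0) (h1 : val g 1 = 0)
    (hg : ∀ t, (val g t).trace = 0) : τ g = 0 := by
  rcases isEmpty_or_nonempty (Ix p q) with he | he
  · rw [show g = 0 from val_ext fun t => Subsingleton.elim _ _, map_zero]
  obtain ⟨c⟩ := he
  have key : ∀ (φ : C(I, ℂ)) (f0 : φ 0 = 0) (f1 : φ 1 = 0) (a b : Ix p q),
      τ (corner φ f0 f1 a b) = if a = b then τ (corner φ f0 f1 c c) else 0 := by
    intro φ f0 f1 a b
    obtain ⟨u, v, hu, hv, huv⟩ := exists_factor φ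
    have e1 : corner φ f0 f1 a b =
        corner u (hu 0 f0) (hu 1 f1) a c * corner v (hv 0 f0) (hv 1 f1) c b :=
      val_ext fun t => by simp [huv]
    rw [e1, hτ]
    split_ifs with h
    · subst h
      congr 1
      exact val_ext fun t => by simp [mul_comm, huv]
    · rw [show corner v (hv 0 f0) (hv 1 f1) c b * corner u (hu 0 f0) (hu 1 f1) a c = 0 from
        val_ext fun t => by simp [Matrix.single_mul_single_of_ne _ _ _ _ (Ne.symm h)], map_zero]
  conv_lhs => rw [eq_sum_corner g h0 h1]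
  rw [map_sum]
  simp only [map_sum]
  rw [Finset.sum_congr rfl fun a _ => Finset.sum_congr rfl fun b _ => key _ _ _ a b]
  simp only [Finset.sum_ite_eq, Finset.mem_univ, if_true]
  rw [← map_sum]
  refine (congrArg τ (val_ext fun t => ?_)).trans (map_zero τ)
  simp only [val_sum, val_corner, ContinuousMap.coe_mk, val_zero]
  simp only [Matrix.trace, Matrix.diag] at hg
  ext a b
  by_cases hab : c = a ∧ c = b <;>
    simp [Matrix.sum_apply, Matrix.single_apply, hab, hg t]

include hτ in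
/-- A tracial functional kills trace zero functions. -/
theorem trace_zero (f : dropAlg p q ℂ) (hf : ∀ t, (val f t).trace = 0) : τ f = 0 := by
  rcases isEmpty_or_nonempty (Ix p q) with he | he
  · rw [show f = 0 from val_ext fun t => Subsingleton.elim _ _, map_zero]
  obtain ⟨⟨i0, k0⟩⟩ := he
  have hp : (p : ℂ) ≠ 0 := by exact_mod_cast (Fin.pos i0).ne'
  have hq : (q : ℂ) ≠ 0 := by exact_mod_cast (Fin.pos k0).ne'
  set F0 := (p : ℂ)⁻¹ • ∑ i, ∑ j, lU j i * f * lU i j with hF0
  set F1 := (q : ℂ)⁻¹ • ∑ k, ∑ l, rU l k * f * rU k l with hF1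
  set G0 := (p : ℂ)⁻¹ • ∑ i, ∑ j, f * (lU i j * lU j i) with hG0
  set G1 := (q : ℂ)⁻¹ • ∑ k, ∑ l, f * (rU k l * rU l k) with hG1
  have sw : ∀ x y : dropAlg p q ℂ, τ (x * f * y) = τ (f * (y * x)) := fun x y => by
    rw [mul_assoc, hτ, mul_assoc]
  have e0 : τ F0 = τ G0 := by simp [hF0, hG0, sw]
  have e1 : τ F1 = τ G1 := by simp [hF1, hG1, sw]
  have vl : ∀ t, val (∑ i : Fin p, ∑ j : Fin p, (lU i j * lU j i : dropAlg p q ℂ)) t =
      ((p : ℂ) * ((1 - (t : ℝ) : ℝ) : ℂ) ^ 2) • 1 := fun t => by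
    ext ⟨i, k⟩ ⟨j, l⟩
    simp only [val_sum, val_mul, lU, val_el, Matrix.sum_apply, Matrix.smul_mul, Matrix.mul_smul,
      Matrix.smul_apply, smul_eq_mul, eL_mul]
    simp only [eL, Matrix.of_apply, Matrix.one_apply, Prod.mk.injEq]
    by_cases h : i = j <;> by_cases h' : k = l <;> simp [h, h', pow_two, eq_comm] <;> ring
  have vr : ∀ t, val (∑ k : Fin q, ∑ l : Fin q, (rU k l * rU l k : dropAlg p q ℂ)) t =
      ((q : ℂ) * (((t : ℝ)) : ℂ) ^ 2) • 1 := fun t => by
    ext ⟨i, k⟩ ⟨j, l⟩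
    simp only [val_sum, val_mul, rU, val_el, Matrix.sum_apply, Matrix.smul_mul, Matrix.mul_smul,
      Matrix.smul_apply, smul_eq_mul, eR_mul]
    simp only [eR, Matrix.of_apply, Matrix.one_apply, Prod.mk.injEq]
    by_cases h : i = j <;> by_cases h' : k = l <;> simp [h, h', pow_two, eq_comm] <;> ring
  have vG0 : ∀ t, val G0 t = ((1 - (t : ℝ) : ℝ) : ℂ) ^ 2 • val f t := fun t => by
    rw [hG0]
    simp only [← Finset.mul_sum, val_smul, val_mul, vl, Matrix.mul_smul, Matrix.mul_one, smul_smul]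
    field_simp
  have vG1 : ∀ t, val G1 t = (((t : ℝ)) : ℂ) ^ 2 • val f t := fun t => by
    rw [hG1]
    simp only [← Finset.mul_sum, val_smul, val_mul, vr, Matrix.mul_smul, Matrix.mul_one, smul_smul]
    field_simp
  set g := f - G0 - G1 + F0 + F1 with hg
  have hτg : τ g = τ f := by simp only [hg, map_add, map_sub, e0, e1]; ring
  rw [← hτg]
  obtain ⟨m, hm⟩ := val_zero_left f
  obtain ⟨m', hm'⟩ := val_one_right f
  have hm0 : ∑ i, m i i = 0 := by
    have h := hf 0
    simp [Matrix.trace, Fintype.sum_prod_type, hm, ← Finset.mul_sum, hq] at h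
    exact h
  have hm1 : ∑ k, m' k k = 0 := by
    have h := hf 1
    simp [Matrix.trace, Fintype.sum_prod_type, hm', ← Finset.mul_sum, hp] at h
    exact h
  refine trace_zero_interior τ hτ g ?_ ?_ fun t => ?_
  · ext ⟨i, k⟩ ⟨j, l⟩
    simp only [hg, val_add, val_sub, Matrix.add_apply, Matrix.sub_apply, vG0, vG1, hF0, hF1,
      val_smul, Matrix.smul_apply, lU_sandwich, rU_sandwich, hm, Set.Icc.coe_zero,
      Matrix.zero_apply, smul_eq_mul]
    by_cases h : i = j <;> by_cases h' : k = l <;> simp [h, h', hm0]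
  · ext ⟨i, k⟩ ⟨j, l⟩
    simp only [hg, val_add, val_sub, Matrix.add_apply, Matrix.sub_apply, vG0, vG1, hF0, hF1,
      val_smul, Matrix.smul_apply, lU_sandwich, rU_sandwich, hm', Set.Icc.coe_one,
      Matrix.zero_apply, smul_eq_mul]
    by_cases h : i = j <;> by_cases h' : k = l <;> simp [h, h', hm1]
  · have hF : ∀ t, (val F0 t).trace = ((1 - (t : ℝ) : ℝ) : ℂ) ^ 2 * (val f t).trace ∧
        (val F1 t).trace = (((t : ℝ)) : ℂ) ^ 2 * (val f t).trace := fun t => by
      constructor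
      · simp only [Matrix.trace, Matrix.diag, hF0, val_smul, Matrix.smul_apply, lU_sandwich,
          Fintype.sum_prod_type, if_true, smul_eq_mul]
        rw [Finset.sum_const, Finset.card_univ, Fintype.card_fin, nsmul_eq_mul]
        rw [← Finset.mul_sum, Finset.sum_comm, ← Finset.mul_sum]
        field_simp
      · simp only [Matrix.trace, Matrix.diag, hF1, val_smul, Matrix.smul_apply, rU_sandwich,
          Fintype.sum_prod_type, if_true, smul_eq_mul, Finset.sum_const, Finset.card_univ,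
          Fintype.card_fin, nsmul_eq_mul, ← Finset.mul_sum]
        field_simp
    simp [hg, vG0, vG1, (hF t).1, (hF t).2, hf t]

end Trace

/-- The normalised trace at a point. -/
def ntr (f : dropAlg p q ℂ) (t : I) : ℂ := (val f t).trace / ((p : ℂ) * q)

theorem norm_ntr_le (f : dropAlg p q ℂ) (t : I) : ‖ntr f t‖ ≤ ‖f‖ := by
  have hb : ∀ a, ‖val f t a a‖ ≤ ‖f‖ := fun a =>
    (CStarMatrix.norm_entry_le_norm (M := (f : C(I, CStarMatrix (Ix p q) (Ix p q) ℂ)) t)
      (i := a) (j := a)).trans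
      (ContinuousMap.norm_coe_le_norm (f : C(I, CStarMatrix (Ix p q) (Ix p q) ℂ)) t)
  rcases eq_or_ne (p * q) 0 with h | h
  · have : ((p : ℂ) * q) = 0 := by exact_mod_cast h
    simp [ntr, this]
  have hpq : (0 : ℝ) < (p : ℝ) * q := by
    have : 0 < p * q := Nat.pos_of_ne_zero h
    exact_mod_cast this
  rw [ntr, norm_div, norm_mul, Complex.norm_natCast, Complex.norm_natCast, div_le_iff₀ hpq]
  refine (norm_sum_le _ _).trans ((Finset.sum_le_sum fun a _ => hb a).trans_eq ?_)
  simp [mul_comm]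

/-- A tracial functional on an almost constant trace function. -/
theorem trace_near (τ : dropAlg p q ℂ →L[ℂ] ℂ) (hτ : ∀ x y, τ (x * y) = τ (y * x))
    (h1 : τ 1 = 1) (hp : p ≠ 0) (hq : q ≠ 0) (f : dropAlg p q ℂ) (c : ℂ) {δ : ℝ}
    (hδ : ∀ t, ‖ntr f t - c‖ ≤ δ) : ‖τ f - c‖ ≤ ‖τ‖ * δ := by
  have hpq : ((p : ℂ) * q) ≠ 0 := mul_ne_zero (by exact_mod_cast hp) (by exact_mod_cast hq)
  set φ : C(I, ℂ) := ⟨fun t => ntr f t - c, by
    refine (Continuous.div_const ?_ _).sub continuous_const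
    simp only [Matrix.trace, Matrix.diag]
    exact continuous_finsetSum _ fun a _ => continuous_val f a a⟩ with hφ
  have hk : τ (f - sca φ - c • 1) = 0 := by
    refine trace_zero τ.toLinearMap hτ _ fun t => ?_
    simp [hφ, ntr, Matrix.trace_one]
    field_simp
    ring
  rw [map_sub, map_sub, map_smul, h1, smul_eq_mul, mul_one] at hk
  rw [show τ f - c = τ (sca φ) by linear_combination hk]
  refine (τ.le_opNorm _).trans (mul_le_mul_of_nonneg_left ?_ (norm_nonneg _))
  have hδ0 : 0 ≤ δ := (norm_nonneg _).trans (hδ 0)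
  show ‖((sca φ : dropAlg p q ℂ) : C(I, CStarMatrix (Ix p q) (Ix p q) ℂ))‖ ≤ δ
  rw [ContinuousMap.norm_le _ hδ0]
  intro t
  have : ((sca φ : dropAlg p q ℂ) : C(I, CStarMatrix (Ix p q) (Ix p q) ℂ)) t
      = φ t • (1 : CStarMatrix (Ix p q) (Ix p q) ℂ) := rfl
  rw [this]
  have : Nonempty (Ix p q) := ⟨(⟨0, Nat.pos_of_ne_zero hp⟩, ⟨0, Nat.pos_of_ne_zero hq⟩)⟩
  rw [norm_smul, norm_one, mul_one]
  exact hδ t

end Vale.Agent.P101.Limit
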