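import Vale.Agent.P101.Limit.Completion
import Vale.Agent.P101.Limit.Drop

/-!
An injective system of dimension drop algebras over `ℂ` whose images become constant in trace and
spread to every point has a simple limit with exactly one tracial functional.
-/

set_option maxSynthPendingDepth 3

open scoped ComplexOrder Matrix
open unitInterval Filter Topology UniformSpace
open Vale.Agent.P101.Drop (dropAlg)

noncomputable section

namespace Vale.Agent.P101.Limit

section Ntr

variable {p q : ℕ}

theorem ntr_add (f g : dropAlg p q ℂ) (t : I) : ntr (f + g) t = ntr f t + ntr g t := by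
  simp [ntr, add_div]

theorem ntr_smul (c : ℂ) (f : dropAlg p q ℂ) (t : I) : ntr (c • f) t = c * ntr f t := by
  simp [ntr, mul_div_assoc]

theorem ntr_one [NeZero p] [NeZero q] (t : I) : ntr (1 : dropAlg p q ℂ) t = 1 := by
  simp [ntr, Matrix.trace_one, NeZero.ne]

theorem ntr_mul_comm (f g : dropAlg p q ℂ) (t : I) : ntr (f * g) t = ntr (g * f) t := by
  simp only [ntr, val_mul, Matrix.trace_mul_comm (val f t)]

theorem ntr_star_mul_self_nonneg (f : dropAlg p q ℂ) (t : I) : 0 ≤ ntr (star f * f) t := by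
  rw [ntr, val_mul, val_star, div_eq_mul_inv]
  refine mul_nonneg (Matrix.posSemidef_conjTranspose_mul_self _).trace_nonneg ?_
  rw [← Nat.cast_mul, ← Complex.ofReal_natCast, ← Complex.ofReal_inv, Complex.zero_le_real]
  positivity

end Ntr

/-- An injective system of dimension drop algebras. -/
structure DropSys where
  /-- The first sizes. -/
  p : ℕ → ℕ
  /-- The second sizes. -/
  q : ℕ → ℕ
  [p_ne : ∀ j, NeZero (p j)]
  [q_ne : ∀ j, NeZero (q j)]
  /-- The connecting maps. -/
  conn : ∀ j, dropAlg (p j) (q j) ℂ →⋆ₐ[ℂ] dropAlg (p (j + 1)) (q (j + 1)) ℂ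
  injective : ∀ j, Function.Injective (conn j)

namespace DropSys

variable (W : DropSys)

instance (j : ℕ) : NeZero (W.p j) := W.p_ne j
instance (j : ℕ) : NeZero (W.q j) := W.q_ne j

/-- The underlying system of C⋆-algebras. -/
def toSys : Sys.{0} where
  D j := dropAlg (W.p j) (W.q j) ℂ
  conn := W.conn
  injective := W.injective

/-- The composites. -/
def tr {i j : ℕ} (h : i ≤ j) :
    dropAlg (W.p i) (W.q i) ℂ →⋆ₐ[ℂ] dropAlg (W.p j) (W.q j) ℂ :=
  W.toSys.trans h

/-- The limit. -/
abbrev Z : Type := W.toSys.Z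

/-- The map of a stage into the limit. -/
def inc (j : ℕ) : dropAlg (W.p j) (W.q j) ℂ →⋆ₐ[ℂ] W.Z := W.toSys.incl j

theorem norm_inc (j : ℕ) (f : dropAlg (W.p j) (W.q j) ℂ) : ‖W.inc j f‖ = ‖f‖ :=
  W.toSys.norm_incl j f

theorem inc_injective (j : ℕ) : Function.Injective (W.inc j) := W.toSys.incl_injective j

theorem inc_tr {i j : ℕ} (h : i ≤ j) (f : dropAlg (W.p i) (W.q i) ℂ) :
    W.inc j (W.tr h f) = W.inc i f := W.toSys.incl_trans h f

theorem exists_inc (a : W.toSys.Pre) :
    ∃ j, ∃ f : dropAlg (W.p j) (W.q j) ℂ, W.inc j f = (a : W.Z) := W.toSys.exists_incl a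

theorem exists_near (z : W.Z) {ε : ℝ} (hε : 0 < ε) :
    ∃ j, ∃ f : dropAlg (W.p j) (W.q j) ℂ, ‖z - W.inc j f‖ < ε := W.toSys.exists_near z hε

/-- Far along the system the trace of an image is nearly constant. -/
def TraceFlat : Prop :=
  ∀ i (f : dropAlg (W.p i) (W.q i) ℂ) (ε : ℝ), 0 < ε →
    ∀ᶠ j in atTop, ∀ h : i ≤ j, ∀ t, ‖ntr (W.tr h f) t - ntr (W.tr h f) 0‖ ≤ ε

/-- A nonzero element is eventually nonzero at every point. -/
def Spreads : Prop :=
  ∀ i (f : dropAlg (W.p i) (W.q i) ℂ), f ≠ 0 →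
    ∃ j, ∃ h : i ≤ j, ∀ t, val (W.tr h f) t ≠ 0

/-- The trace at `0` of the images of an element. -/
def trSeq (i : ℕ) (f : dropAlg (W.p i) (W.q i) ℂ) (j : ℕ) : ℂ :=
  if h : i ≤ j then ntr (W.tr h f) 0 else 0

theorem trSeq_of_le {i j : ℕ} (h : i ≤ j) (f : dropAlg (W.p i) (W.q i) ℂ) :
    W.trSeq i f j = ntr (W.tr h f) 0 := dif_pos h

theorem norm_tr {i j : ℕ} (h : i ≤ j) (f : dropAlg (W.p i) (W.q i) ℂ) :
    ‖W.tr h f‖ = ‖f‖ := W.toSys.norm_trans h f

theorem tr_tr {i j k : ℕ} (h : i ≤ j) (h' : j ≤ k) (f : dropAlg (W.p i) (W.q i) ℂ) :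
    W.tr h' (W.tr h f) = W.tr (h.trans h') f := W.toSys.trans_trans h h' f

variable {W}

theorem TraceFlat.cauchySeq (hW : W.TraceFlat) (i : ℕ) (f : dropAlg (W.p i) (W.q i) ℂ) :
    CauchySeq (W.trSeq i f) := by
  refine Metric.cauchySeq_iff'.2 fun ε hε => ?_
  obtain ⟨N, hN⟩ := eventually_atTop.1 (hW i f (ε / 2) (half_pos hε))
  refine ⟨max N i, fun k hk => ?_⟩
  have hij : i ≤ max N i := le_max_right _ _
  let ν : dropAlg (W.p (max N i)) (W.q (max N i)) ℂ →L[ℂ] ℂ :=
    LinearMap.mkContinuous
      { toFun := fun x => ntr (W.tr hk x) 0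
        map_add' := fun x y => by rw [map_add, ntr_add]
        map_smul' := fun c x => by rw [map_smul, ntr_smul]; rfl } 1
      fun x => (norm_ntr_le _ _).trans (by rw [one_mul, W.norm_tr])
  have h := trace_near ν (fun x y => ?_) ?_ (NeZero.ne _) (NeZero.ne _) (W.tr hij f) _
    (hN _ (le_max_left _ _) hij)
  · rw [dist_eq_norm, W.trSeq_of_le hij, W.trSeq_of_le (hij.trans hk), ← W.tr_tr hij hk f]
    refine (h.trans ?_).trans_lt (half_lt_self hε)
    exact mul_le_of_le_one_left (half_pos hε).le (LinearMap.mkContinuous_norm_le _ zero_le_one _)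
  · show ntr (W.tr hk (x * y)) 0 = ntr (W.tr hk (y * x)) 0
    rw [map_mul, map_mul, ntr_mul_comm]
  · show ntr (W.tr hk 1) 0 = 1
    rw [map_one, ntr_one]

variable (W)

/-- The limit of the traces of an element. -/
def stageTrace (i : ℕ) (f : dropAlg (W.p i) (W.q i) ℂ) : ℂ := limUnder atTop (W.trSeq i f)

variable {W} (hW : W.TraceFlat)

include hW in
theorem tendsto_trSeq (i : ℕ) (f : dropAlg (W.p i) (W.q i) ℂ) :
    Tendsto (W.trSeq i f) atTop (𝓝 (W.stageTrace i f)) :=
  (hW.cauchySeq i f).tendsto_limUnder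

include hW in
theorem stageTrace_add (i : ℕ) (f g : dropAlg (W.p i) (W.q i) ℂ) :
    W.stageTrace i (f + g) = W.stageTrace i f + W.stageTrace i g := by
  refine tendsto_nhds_unique (tendsto_trSeq hW i (f + g))
    (((tendsto_trSeq hW i f).add (tendsto_trSeq hW i g)).congr' ?_)
  filter_upwards [eventually_ge_atTop i] with j hj
  simp [W.trSeq_of_le hj, ntr_add]

include hW in
theorem stageTrace_smul (i : ℕ) (c : ℂ) (f : dropAlg (W.p i) (W.q i) ℂ) :
    W.stageTrace i (c • f) = c * W.stageTrace i f := by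
  refine tendsto_nhds_unique (tendsto_trSeq hW i (c • f))
    (((tendsto_trSeq hW i f).const_mul c).congr' ?_)
  filter_upwards [eventually_ge_atTop i] with j hj
  simp [W.trSeq_of_le hj, ntr_smul]

include hW in
theorem stageTrace_tr {i j : ℕ} (h : i ≤ j) (f : dropAlg (W.p i) (W.q i) ℂ) :
    W.stageTrace j (W.tr h f) = W.stageTrace i f := by
  refine tendsto_nhds_unique (tendsto_trSeq hW j _) ((tendsto_trSeq hW i f).congr' ?_)
  filter_upwards [eventually_ge_atTop j] with k hk
  rw [W.trSeq_of_le hk, W.trSeq_of_le (h.trans hk), W.tr_tr]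

include hW in
theorem norm_stageTrace_le (i : ℕ) (f : dropAlg (W.p i) (W.q i) ℂ) :
    ‖W.stageTrace i f‖ ≤ ‖f‖ := by
  refine le_of_tendsto (tendsto_trSeq hW i f).norm ?_
  filter_upwards [eventually_ge_atTop i] with j hj
  rw [W.trSeq_of_le hj]
  exact (norm_ntr_le _ _).trans_eq (W.norm_tr hj f)

/-- The trace on the algebraic limit. -/
def preTrace : W.toSys.Pre →ₗ[ℂ] ℂ where
  toFun := DirectLimit.lift W.toSys.sys (fun i f => W.stageTrace i f)
    fun _ _ h f => (stageTrace_tr hW h f).symm
  map_add' := DirectLimit.induction₂ _ fun i x y =>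
    (congrArg (DirectLimit.lift W.toSys.sys (fun i f => W.stageTrace i f)
      fun _ _ h f => (stageTrace_tr hW h f).symm) (DirectLimit.add_def i x y)).trans
      (stageTrace_add hW i x y)
  map_smul' c := DirectLimit.induction _ fun i x =>
    (congrArg (DirectLimit.lift W.toSys.sys (fun i f => W.stageTrace i f)
      fun _ _ h f => (stageTrace_tr hW h f).symm)
        (DirectLimit.smul_def (f := W.toSys.sys) i x c)).trans
      (stageTrace_smul hW i c x)

theorem norm_preTrace_le : ∀ a, ‖preTrace hW a‖ ≤ ‖a‖ :=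
  DirectLimit.induction _ fun i x =>
    (norm_stageTrace_le hW i x).trans_eq (W.toSys.norm_mk i x).symm

theorem extension_preTrace_coe (a : W.toSys.Pre) :
    Completion.extension (preTrace hW) (a : W.Z) = preTrace hW a :=
  Completion.extension_coe (AddMonoidHomClass.lipschitz_of_bound (preTrace hW) 1 fun a => by
    rw [one_mul]; exact norm_preTrace_le hW a).uniformContinuous a

/-- The trace on the limit. -/
def limTrace : W.Z →L[ℂ] ℂ :=
  LinearMap.mkContinuous
    { toFun := Completion.extension (preTrace hW)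
      map_add' := fun x y => by
        induction x, y using Completion.induction_on₂ with
        | hp =>
          exact isClosed_eq (Completion.continuous_extension.comp (continuous_fst.add continuous_snd))
            ((Completion.continuous_extension.comp continuous_fst).add
              (Completion.continuous_extension.comp continuous_snd))
        | ih a b =>
          rw [← Completion.coe_add, extension_preTrace_coe, extension_preTrace_coe,
            extension_preTrace_coe, map_add]
      map_smul' := fun c x => Completion.induction_on x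
        (isClosed_eq (Completion.continuous_extension.comp (continuous_const_smul c))
          (Completion.continuous_extension.const_smul (RingHom.id ℂ c))) fun a => by
        rw [← Completion.coe_smul, extension_preTrace_coe, extension_preTrace_coe, map_smul]
        rfl } 1
    fun x => Completion.induction_on x
      (isClosed_le Completion.continuous_extension.norm (continuous_norm.const_mul 1)) fun a => by
      rw [one_mul, Completion.norm_coe]
      exact (congrArg _ (extension_preTrace_coe hW a)).trans_le (norm_preTrace_le hW a)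

theorem limTrace_incl (i : ℕ) (f : dropAlg (W.p i) (W.q i) ℂ) :
    limTrace hW (W.inc i f) = W.stageTrace i f :=
  extension_preTrace_coe hW (⟦⟨i, f⟩⟧ : W.toSys.Pre)

theorem limTrace_one : limTrace hW 1 = 1 := by
  rw [← map_one (W.inc 0), limTrace_incl]
  refine tendsto_nhds_unique (tendsto_trSeq hW 0 1) (tendsto_const_nhds.congr fun j => ?_)
  rw [W.trSeq_of_le (Nat.zero_le j), map_one, ntr_one]

theorem limTrace_nonneg (z : W.Z) : 0 ≤ limTrace hW (star z * z) := by
  have : OrderClosedTopology ℂ := Complex.orderClosedTopology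
  induction z using Completion.induction_on with
  | hp =>
    exact isClosed_le continuous_const ((limTrace hW).continuous.comp
      (W.toSys.continuous_star.mul continuous_id))
  | ih a =>
    obtain ⟨i, x, e⟩ := W.exists_inc a
    rw [← e, ← map_star, ← map_mul, limTrace_incl]
    refine ge_of_tendsto (tendsto_trSeq hW i _) ?_
    filter_upwards [eventually_ge_atTop i] with j hj
    rw [W.trSeq_of_le hj, map_mul, map_star]
    exact ntr_star_mul_self_nonneg _ _

theorem limTrace_inc_mul_comm (i : ℕ) (x y : dropAlg (W.p i) (W.q i) ℂ) :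
    limTrace hW (W.inc i x * W.inc i y) = limTrace hW (W.inc i y * W.inc i x) := by
  rw [← map_mul, ← map_mul, limTrace_incl, limTrace_incl]
  refine tendsto_nhds_unique (tendsto_trSeq hW i _) ((tendsto_trSeq hW i _).congr' ?_)
  filter_upwards [eventually_ge_atTop i] with j hj
  rw [W.trSeq_of_le hj, W.trSeq_of_le hj, map_mul, map_mul, ntr_mul_comm]

theorem limTrace_mul_comm (y z : W.Z) : limTrace hW (y * z) = limTrace hW (z * y) := by
  induction y, z using Completion.induction_on₂ with
  | hp =>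
    exact isClosed_eq ((limTrace hW).continuous.comp (continuous_fst.mul continuous_snd))
      ((limTrace hW).continuous.comp (continuous_snd.mul continuous_fst))
  | ih a b =>
    induction a, b using DirectLimit.induction₂ with
    | ih i x y => exact limTrace_inc_mul_comm hW i x y

include hW in
theorem limTrace_unique (τ : W.Z →L[ℂ] ℂ) (h1 : τ 1 = 1)
    (hτ : ∀ y z, τ (y * z) = τ (z * y)) : τ = limTrace hW := by
  refine ContinuousLinearMap.ext fun z => ?_
  induction z using Completion.induction_on with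
  | hp => exact isClosed_eq τ.continuous (limTrace hW).continuous
  | ih a =>
    obtain ⟨i, x, e⟩ := W.exists_inc a
    rw [← e, limTrace_incl]
    refine eq_of_forall_dist_le fun ε hε => ?_
    have hd : 0 < ‖τ‖ + 1 := by positivity
    obtain ⟨j, hj, hfl, hlim⟩ := ((eventually_ge_atTop i).and
      ((hW i x (ε / 2 / (‖τ‖ + 1)) (by positivity)).and
        (Metric.tendsto_nhds.1 (tendsto_trSeq hW i x) (ε / 2) (half_pos hε)))).exists
    let ν : dropAlg (W.p j) (W.q j) ℂ →L[ℂ] ℂ :=
      LinearMap.mkContinuous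
        { toFun := fun x => τ (W.inc j x)
          map_add' := fun x y => by rw [map_add, map_add]
          map_smul' := fun c x => by rw [map_smul, map_smul]; rfl } ‖τ‖
        fun x => (τ.le_opNorm _).trans_eq (by rw [W.norm_inc])
    have h := trace_near ν (fun a b => ?_) ?_ (NeZero.ne _) (NeZero.ne _) (W.tr hj x) _ (hfl hj)
    · rw [W.trSeq_of_le hj] at hlim
      calc dist (τ (W.inc i x)) (W.stageTrace i x)
          ≤ dist (τ (W.inc i x)) (ntr (W.tr hj x) 0)
            + dist (ntr (W.tr hj x) 0) (W.stageTrace i x) := dist_triangle _ _ _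
        _ ≤ ε / 2 + ε / 2 := by
            refine add_le_add ?_ hlim.le
            rw [dist_eq_norm, ← W.inc_tr hj x]
            refine h.trans ?_
            refine (mul_le_mul_of_nonneg_right (LinearMap.mkContinuous_norm_le _ (norm_nonneg τ) _)
              (by positivity)).trans ?_
            rw [← mul_div_assoc, div_le_iff₀ hd, mul_comm]
            exact mul_le_mul_of_nonneg_left (le_add_of_nonneg_right zero_le_one) (half_pos hε).le
        _ = ε := add_halves ε
    · show τ (W.inc j (a * b)) = τ (W.inc j (b * a))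
      rw [map_mul (W.inc j), map_mul (W.inc j), hτ]
    · show τ (W.inc j 1) = 1
      rw [map_one, h1]

include hW in
/-- Exactly one tracial state. -/
theorem existsUnique_trace : ∃! τ : W.Z →L[ℂ] ℂ,
    τ 1 = 1 ∧ (∀ z, 0 ≤ τ (star z * z)) ∧ ∀ y z, τ (y * z) = τ (z * y) :=
  ⟨limTrace hW, ⟨limTrace_one hW, limTrace_nonneg hW, limTrace_mul_comm hW⟩,
    fun τ h => limTrace_unique hW τ h.1 h.2.2⟩

variable (W)

instance : Nontrivial W.Z := by
  refine ⟨0, 1, fun h => ?_⟩
  rw [← map_zero (W.inc 0), ← map_one (W.inc 0)] at h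
  have := congrArg (fun f => ntr (f : dropAlg (W.p 0) (W.q 0) ℂ) 0) (W.inc_injective 0 h)
  simp only [ntr_one] at this
  simp [ntr] at this

variable {W}

theorem exists_selfAdjoint_near {a : W.Z} (ha : IsSelfAdjoint a) {ε : ℝ} (hε : 0 < ε) :
    ∃ i, ∃ f : dropAlg (W.p i) (W.q i) ℂ, IsSelfAdjoint f ∧ ‖a - W.inc i f‖ ≤ ε := by
  obtain ⟨i, f, hf⟩ := W.exists_near a hε
  refine ⟨i, (1 / 2 : ℂ) • (f + star f), ?_, ?_⟩
  · simp [IsSelfAdjoint, star_smul, add_comm]
  · have e : a - W.inc i ((1 / 2 : ℂ) • (f + star f)) =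
        (1 / 2 : ℂ) • ((a - W.inc i f) + star (a - W.inc i f)) := by
      rw [star_sub, ha.star_eq, map_smul, map_add, map_star]
      module
    rw [e, norm_smul, show ‖(1 / 2 : ℂ)‖ = (1 / 2 : ℝ) by simp]
    have := norm_add_le (a - W.inc i f) (star (a - W.inc i f))
    rw [norm_star] at this
    linarith

/-- Functional calculus of an almost norm one element: a nonzero `y` on which `f * f` is
invertible. -/
theorem exists_corner (i : ℕ) {f : dropAlg (W.p i) (W.q i) ℂ} (hf : IsSelfAdjoint f)
    (hlo : 15 / 16 ≤ ‖f‖) :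
    ∃ G y : dropAlg (W.p i) (W.q i) ℂ, y ≠ 0 ∧ ‖G‖ ≤ 2 ∧ G * f * f * y = y := by
  set φ : ℝ → ℝ := fun s => max (s * s - 1 / 2) 0 with hφ
  set g : ℝ → ℝ := fun s => (max (s * s) (1 / 2))⁻¹ with hg
  have hφc : Continuous φ := by fun_prop
  have hgc : Continuous g :=
    Continuous.inv₀ (by fun_prop) fun s => (lt_max_of_lt_right (by norm_num : (0 : ℝ) < 1 / 2)).ne'
  refine ⟨cfc g f, cfc φ f, ?_, ?_, ?_⟩
  · have : Nontrivial (dropAlg (W.p i) (W.q i) ℂ) :=
      ⟨f, 0, fun h => by rw [h, norm_zero] at hlo; norm_num at hlo⟩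
    intro h
    obtain ⟨x, hx, hxe⟩ : ∃ x ∈ spectrum ℝ f, |x| = ‖f‖ := by
      rcases CStarAlgebra.norm_or_neg_norm_mem_spectrum (a := f) (ha := hf) with h | h
      · exact ⟨_, h, abs_norm f⟩
      · exact ⟨_, h, by rw [abs_neg, abs_norm]⟩
    have := norm_apply_le_norm_cfc φ f hx hφc.continuousOn hf
    rw [h, norm_zero, norm_le_zero_iff] at this
    have h1 : x * x - 1 / 2 ≤ 0 := this ▸ le_max_left _ _
    rw [← abs_mul_abs_self, hxe] at h1
    nlinarith [mul_le_mul hlo hlo (by norm_num) (norm_nonneg f)]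
  · refine norm_cfc_le (by norm_num) fun s _ => ?_
    simp only [hg]
    rw [Real.norm_of_nonneg (inv_nonneg.2 (le_max_of_le_right (by norm_num : (0 : ℝ) ≤ 1 / 2)))]
    calc (max (s * s) (1 / 2))⁻¹ ≤ (1 / 2 : ℝ)⁻¹ := inv_anti₀ (by norm_num) (le_max_right _ _)
      _ = 2 := by norm_num
  · have e1 : cfc (fun s => g s * s) f = cfc g f * f := by
      rw [cfc_mul g (fun s => s) f hgc.continuousOn continuousOn_id, cfc_id' ℝ f hf]
    have e2 : cfc (fun s => g s * s * s) f = cfc g f * f * f := by
      rw [cfc_mul (fun s => g s * s) (fun s => s) f (hgc.mul continuous_id).continuousOn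
        continuousOn_id, e1, cfc_id' ℝ f hf]
    have e3 : cfc (fun s => g s * s * s * φ s) f = cfc g f * f * f * cfc φ f := by
      rw [cfc_mul (fun s => g s * s * s) φ f
        ((hgc.mul continuous_id).mul continuous_id).continuousOn hφc.continuousOn, e2]
    rw [← e3]
    refine cfc_congr fun s _ => ?_
    simp only [hφ, hg]
    rcases le_total (1 / 2) (s * s) with hs | hs
    · rw [max_eq_left hs]
      have : s ≠ 0 := fun h0 => by rw [h0, mul_zero] at hs; norm_num at hs
      field_simp
    · rw [max_eq_right (sub_nonpos.2 hs), mul_zero]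

/-- An ideal containing a selfadjoint element of norm one is everything. -/
theorem one_mem_of_mem (hS : W.Spreads) (J : TwoSidedIdeal W.Z) {a : W.Z} (haJ : a ∈ J)
    (hasa : IsSelfAdjoint a) (hna : ‖a‖ = 1) : (1 : W.Z) ∈ J := by
  obtain ⟨i, f, hf, hfa⟩ := exists_selfAdjoint_near hasa (by norm_num : (0 : ℝ) < 1 / 16)
  have hnb : ‖W.inc i f‖ = ‖f‖ := W.norm_inc i f
  have hlo : 15 / 16 ≤ ‖f‖ := by
    have := norm_sub_norm_le a (W.inc i f)
    linarith
  have hhi : ‖f‖ ≤ 17 / 16 := by
    have := norm_sub_norm_le (W.inc i f) a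
    rw [norm_sub_rev] at this
    linarith
  obtain ⟨G, y, hy0, hGn, hGy⟩ := exists_corner i hf hlo
  set b := W.inc i f with hb
  set c := W.inc i G with hc
  set Y := W.inc i y with hY
  have hcb : c * b * b * Y = Y := by
    rw [hc, hb, hY, ← map_mul, ← map_mul, ← map_mul, hGy]
  have hEn : ‖c * (b * b - a * a)‖ < 1 := by
    have e : b * b - a * a = b * (b - a) + (b - a) * a := by noncomm_ring
    have h1 : ‖b * b - a * a‖ ≤ 17 / 16 * (1 / 16) + 1 / 16 * 1 := by
      rw [e]
      refine (norm_add_le _ _).trans (add_le_add ((norm_mul_le _ _).trans ?_)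
        ((norm_mul_le _ _).trans ?_))
      · rw [norm_sub_rev b a, hnb]
        exact mul_le_mul hhi hfa (norm_nonneg _) (by norm_num)
      · rw [norm_sub_rev b a, hna]
        exact mul_le_mul_of_nonneg_right hfa zero_le_one
    refine (norm_mul_le _ _).trans_lt ?_
    refine (mul_le_mul ((W.norm_inc i G).trans_le hGn) h1 (norm_nonneg _)
      (by norm_num)).trans_lt (by norm_num)
  have hYJ : Y ∈ J := by
    obtain ⟨u, hu⟩ := isUnit_one_sub_of_norm_lt_one hEn
    have e : (u : W.Z) * Y = c * a * a * Y := by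
      rw [hu]
      calc (1 - c * (b * b - a * a)) * Y = Y - c * b * b * Y + c * a * a * Y := by noncomm_ring
        _ = c * a * a * Y := by rw [hcb, sub_self, zero_add]
    rw [← Units.inv_mul_cancel_left u Y, e]
    exact J.mul_mem_left _ _ (J.mul_mem_right _ _ (J.mul_mem_left _ _ haJ))
  obtain ⟨j, hij, hne⟩ := hS i y hy0
  obtain ⟨m, L, R, hLR⟩ := one_isSandwich (star (W.tr hij y) * W.tr hij y) fun t h => hne t <| by
    rwa [val_mul, val_star, Matrix.trace_conjTranspose_mul_self_eq_zero_iff] at h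
  rw [← map_one (W.inc j), hLR, map_sum]
  refine sum_mem fun k _ => ?_
  rw [map_mul, map_mul, map_mul, W.inc_tr hij y]
  exact J.mul_mem_right _ _ (J.mul_mem_left _ _ (J.mul_mem_left _ _ hYJ))

/-- If every nonzero element spreads, the limit is simple. -/
theorem isSimpleRing (hS : W.Spreads) : IsSimpleRing W.Z := by
  refine .of_eq_bot_or_eq_top fun J => ?_
  by_contra! hJ
  obtain ⟨hbot, htop⟩ := hJ
  obtain ⟨z, hz, hz0⟩ : ∃ z ∈ J, z ≠ 0 := by
    by_contra! h
    exact hbot (le_antisymm (fun x hx => (TwoSidedIdeal.mem_bot W.Z).2 (h x hx)) bot_le)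
  have hn : ‖star z * z‖ ≠ 0 :=
    norm_ne_zero_iff.2 ((CStarRing.star_mul_self_ne_zero_iff z).2 hz0)
  refine htop (J.one_mem_iff.1 (one_mem_of_mem hS J
    (a := (‖star z * z‖⁻¹ : ℂ) • (star z * z)) ?_ ?_ ?_))
  · rw [Algebra.smul_def]
    exact J.mul_mem_left _ _ (J.mul_mem_left _ _ hz)
  · simp [IsSelfAdjoint, star_smul]
  · rw [norm_smul, norm_inv, Complex.norm_real, norm_norm, inv_mul_cancel₀ hn]

end DropSys

end Vale.Agent.P101.Limit
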