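import Vale.Agent.P101.Defs
import Vale.Agent.P101.JiangSu.System
import Vale.Agent.P101.Limit.Main

/-!
The limit of the Jiang-Su system has the defining properties of the Jiang-Su algebra.
-/

set_option maxSynthPendingDepth 3

open scoped ComplexOrder Matrix
open unitInterval Filter
open Vale.Agent.P101.Drop (dropAlg)

noncomputable section

namespace Vale.Agent.P101.Limit

open JiangSu

/-- The Jiang-Su system. -/
def jsSys : DropSys where
  p := JiangSu.p
  q := JiangSu.q
  conn := JiangSu.conn
  injective := JiangSu.conn_injective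

/-- The Jiang-Su algebra. -/
abbrev JS : Type := jsSys.Z

theorem tr_eq_connTo (i n : ℕ) (f : dropAlg (JiangSu.p i) (JiangSu.q i) ℂ) :
    jsSys.tr (Nat.le_add_right i n) f = connTo i n f := by
  induction n with
  | zero => exact jsSys.toSys.trans_refl f
  | succ n ih =>
    exact (jsSys.toSys.trans_succ (Nat.le_add_right i n) f).trans
      (congrArg (JiangSu.conn (i + n)) ih)

/-- A conjugate perturbation changes the normalised trace by at most its norm. -/
theorem norm_ntr_sub_le {p q : ℕ} [NeZero p] [NeZero q] (g : dropAlg p q ℂ) (t : I)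
    (v : CStarMatrix (Ix p q) (Ix p q) ℂ) (hv : v ∈ unitary _) {ε : ℝ}
    (h : ‖(g : C(I, CStarMatrix (Ix p q) (Ix p q) ℂ)) t -
      v * (g : C(I, CStarMatrix (Ix p q) (Ix p q) ℂ)) 0 * star v‖ ≤ ε) :
    ‖ntr g t - ntr g 0‖ ≤ ε := by
  set V : Matrix (Ix p q) (Ix p q) ℂ := CStarMatrix.ofMatrix.symm v
  have hV : Vᴴ * V = 1 := congrArg CStarMatrix.ofMatrix.symm (Unitary.star_mul_self_of_mem hv)
  have htr : (V * val g 0 * Vᴴ).trace = (val g 0).trace := by
    rw [Matrix.trace_mul_cycle, hV, one_mul]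
  have hpq : (0 : ℝ) < (p : ℝ) * q :=
    mul_pos (Nat.cast_pos.2 (NeZero.pos p)) (Nat.cast_pos.2 (NeZero.pos q))
  rw [ntr, ntr, ← htr, ← sub_div, ← Matrix.trace_sub, norm_div, norm_mul, Complex.norm_natCast,
    Complex.norm_natCast, div_le_iff₀ hpq]
  refine (norm_sum_le _ _).trans ((Finset.sum_le_sum fun a _ => ?_).trans_eq (b := ∑ _a : Ix p q, ε) ?_)
  · exact (CStarMatrix.norm_entry_le_norm (i := a) (j := a)
      (M := (g : C(I, CStarMatrix (Ix p q) (Ix p q) ℂ)) t -
        v * (g : C(I, CStarMatrix (Ix p q) (Ix p q) ℂ)) 0 * star v)).trans h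
  · simp [mul_comm]

theorem traceFlat : jsSys.TraceFlat := by
  intro i f ε hε
  obtain ⟨N, hN⟩ := eventually_atTop.1 (near_constant i {f} hε)
  refine eventually_atTop.2 ⟨i + N, fun j hj h t => ?_⟩
  obtain ⟨n, rfl⟩ := Nat.exists_eq_add_of_le h
  obtain ⟨v, hv, -, hG⟩ := hN n (by omega)
  rw [tr_eq_connTo i n f]
  exact norm_ntr_sub_le (p := JiangSu.p (i + n)) (q := JiangSu.q (i + n)) _ t (v t) (hv t)
    (hG f (Finset.mem_singleton_self f) t)

theorem spreads : jsSys.Spreads := by
  intro i f hf
  obtain ⟨N, hN⟩ := eventually_atTop.1 (JiangSu.spread hf)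
  refine ⟨i + N, Nat.le_add_right i N, fun t h => hN N le_rfl t ?_⟩
  rw [tr_eq_connTo i N f] at h
  exact CStarMatrix.ofMatrix.symm.injective h

instance instIsSimpleRingJS : IsSimpleRing JS := DropSys.isSimpleRing spreads

theorem isJiangSu : IsJiangSu JS :=
  ⟨⟨JiangSu.p, JiangSu.q, jsSys.inc, fun j => ⟨two_le_p j, two_le_q j, coprime_p_q j,
      jsSys.inc_injective j, jsSys.toSys.range_incl_subset j⟩, jsSys.toSys.dense_iUnion_range⟩,
    instIsSimpleRingJS, DropSys.existsUnique_trace traceFlat⟩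

open TopologicalSpace in
instance instSecondCountableCStarMatrix {m n : Type*} [Fintype m] [Fintype n] :
    SecondCountableTopology (CStarMatrix m n ℂ) :=
  inferInstanceAs (SecondCountableTopology (m → n → ℂ))

open TopologicalSpace in
instance instSeparableSpaceJS : SeparableSpace JS := by
  have h : IsSeparable (⋃ j, Set.range (jsSys.toSys.incl j)) := .iUnion fun j => by
    have : SecondCountableTopology (dropAlg (JiangSu.p j) (JiangSu.q j) ℂ) := inferInstance
    exact isSeparable_range (f := jsSys.inc j)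
      (AddMonoidHomClass.isometry_of_norm (jsSys.inc j) (jsSys.norm_inc j)).continuous
  exact isSeparable_univ_iff.1 (jsSys.toSys.dense_iUnion_range.closure_eq ▸ h.closure)

end Vale.Agent.P101.Limit
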