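import Mathlib

/-!
Commuting images of an algebra and a simple C⋆-algebra are algebraically independent as soon as
the first map is injective.
-/

noncomputable section

namespace Vale.Agent.P101.Limit

variable {Z : Type*} [CStarAlgebra Z] [IsSimpleRing Z]

/-- A simple unital C⋆-algebra has trivial centre. -/
theorem exists_eq_algebraMap_of_central {c : Z} (hc : ∀ x, c * x = x * c) :
    ∃ r : ℂ, c = algebraMap ℂ Z r := by
  obtain ⟨r, hr⟩ := spectrum.nonempty c
  refine ⟨r, ?_⟩
  set d := algebraMap ℂ Z r - c with hd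
  have hcd : ∀ x, d * x = x * d := fun x => by
    rw [hd, sub_mul, mul_sub, hc, Algebra.commutes]
  let J : TwoSidedIdeal Z := .mk' {x | ∃ y, x = y * d} ⟨0, (zero_mul d).symm⟩
    (fun {_ _} ⟨y, hy⟩ ⟨y', hy'⟩ => ⟨y + y', by rw [add_mul, ← hy, ← hy']⟩)
    (fun {_} ⟨y, hy⟩ => ⟨-y, by rw [neg_mul, ← hy]⟩)
    (fun {x _} ⟨y, hy⟩ => ⟨x * y, by rw [mul_assoc, ← hy]⟩)
    (fun {_ x} ⟨y, hy⟩ => ⟨y * x, by rw [hy, mul_assoc, hcd, mul_assoc]⟩)
  have hdJ : d ∈ J := (TwoSidedIdeal.mem_mk' _ _ _ _ _ _ _).2 ⟨1, (one_mul d).symm⟩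
  rcases IsSimpleOrder.eq_bot_or_eq_top J with h | h
  · rw [h, TwoSidedIdeal.mem_bot] at hdJ
    exact (sub_eq_zero.1 hdJ).symm
  · have h1 : (1 : Z) ∈ J := by rw [h]; trivial
    obtain ⟨y, hy⟩ := (TwoSidedIdeal.mem_mk' _ _ _ _ _ _ _).1 h1
    exact absurd ⟨⟨d, y, by rw [hcd, ← hy], hy.symm⟩, rfl⟩ hr

variable {A B : Type*} [CStarAlgebra A] [CStarAlgebra B] {α : A →⋆ₐ[ℂ] B} {β : Z →⋆ₐ[ℂ] B}

/-- A relation with independent first entries is trivial. -/
theorem eq_zero_of_linearIndependent_left (hcomm : ∀ a z, Commute (α a) (β z))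
    (hα : Function.Injective α) :
    ∀ (n : ℕ) (a : Fin n → A) (w : Fin n → Z), LinearIndependent ℂ a →
      ∑ i, α (a i) * β (w i) = 0 → w = 0 := by
  intro n
  induction n with
  | zero => exact fun a w _ _ => Subsingleton.elim _ _
  | succ n ih =>
    intro a w hind hw
    have ih' : ∀ v : Fin (n + 1) → Z, v 0 = 0 → ∑ i, α (a i) * β (v i) = 0 → v = 0 := by
      intro v h0 hv
      rw [Fin.sum_univ_succ, h0, map_zero, mul_zero, zero_add] at hv
      have := ih (a ∘ Fin.succ) (v ∘ Fin.succ) (hind.comp _ (Fin.succ_injective n)) hv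
      exact funext fun i => Fin.cases h0 (congrFun this) i
    have hmod : ∀ (x y : Z) (v : Fin (n + 1) → Z), ∑ i, α (a i) * β (v i) = 0 →
        ∑ i, α (a i) * β (x * v i * y) = 0 := by
      intro x y v hv
      have : ∀ i, α (a i) * β (x * v i * y) = β x * (α (a i) * β (v i)) * β y := fun i => by
        rw [map_mul, map_mul, ← mul_assoc (β x), ← (hcomm (a i) x).eq]
        simp only [mul_assoc]
      simp only [this, ← Finset.sum_mul, ← Finset.mul_sum, hv, mul_zero, zero_mul]
    refine ih' w ?_ hw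
    let J : TwoSidedIdeal Z := .mk' {x | ∃ v : Fin (n + 1) → Z, v 0 = x ∧ ∑ i, α (a i) * β (v i) = 0}
      ⟨0, rfl, by simp⟩
      (fun {_ _} ⟨v, h, hv⟩ ⟨v', h', hv'⟩ => ⟨v + v', by simp [h, h'],
        by simp [mul_add, Finset.sum_add_distrib, hv, hv']⟩)
      (fun {_} ⟨v, h, hv⟩ => ⟨-v, by simp [h], by simp [hv]⟩)
      (fun {x _} ⟨v, h, hv⟩ => ⟨fun i => x * v i * 1, by simp [h], hmod x 1 v hv⟩)
      (fun {_ y} ⟨v, h, hv⟩ => ⟨fun i => 1 * v i * y, by simp [h], hmod 1 y v hv⟩)
    rcases IsSimpleOrder.eq_bot_or_eq_top J with h | h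
    · have : w 0 ∈ J := (TwoSidedIdeal.mem_mk' _ _ _ _ _ _ _).2 ⟨w, rfl, hw⟩
      rwa [h, TwoSidedIdeal.mem_bot] at this
    exfalso
    have h1 : (1 : Z) ∈ J := by rw [h]; trivial
    obtain ⟨v, hv0, hv⟩ := (TwoSidedIdeal.mem_mk' _ _ _ _ _ _ _).1 h1
    have hc : ∀ i x, v i * x = x * v i := fun i x => by
      have h0 : (fun j => 1 * v j * x - x * v j * 1) = 0 := by
        refine ih' _ (by simp [hv0]) ?_
        simp only [map_sub, mul_sub, Finset.sum_sub_distrib, hmod 1 x v hv, hmod x 1 v hv, sub_zero]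
      simpa [sub_eq_zero] using congrFun h0 i
    choose r hr using fun i => exists_eq_algebraMap_of_central (hc i)
    have hsum : α (∑ i, r i • a i) = 0 := by
      rw [map_sum, ← hv]
      refine Finset.sum_congr rfl fun i _ => ?_
      rw [map_smul, hr i, AlgHomClass.commutes, Algebra.algebraMap_eq_smul_one, mul_smul_comm,
        mul_one]
    have := Fintype.linearIndependent_iff.1 hind r
      (hα (hsum.trans (map_zero α).symm)) 0
    rw [hr 0, this, map_zero] at hv0
    exact zero_ne_one hv0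

/-- Commuting maps, the first injective and the second from a simple algebra, induce an injective
map on the algebraic tensor product. -/
theorem tensor_injective (hcomm : ∀ a z, Commute (α a) (β z)) (hα : Function.Injective α) :
    ∀ (n : ℕ) (a : Fin n → A) (z : Fin n → Z), LinearIndependent ℂ z →
      ∑ i, α (a i) * β (z i) = 0 → ∀ i, a i = 0 := by
  intro n a z hz h
  set V := Submodule.span ℂ (Set.range a) with hV
  have : FiniteDimensional ℂ V := FiniteDimensional.span_of_finite ℂ (Set.finite_range a)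
  set b := Module.finBasis ℂ V
  set d : Fin n → Fin (Module.finrank ℂ V) → ℂ := fun i =>
    b.repr ⟨a i, Submodule.subset_span ⟨i, rfl⟩⟩ with hd
  have hb : ∀ i, a i = ∑ k, d i k • (b k : A) := fun i => by
    have := congrArg V.subtype (b.sum_repr ⟨a i, Submodule.subset_span ⟨i, rfl⟩⟩)
    simp only [map_sum, map_smul] at this
    exact this.symm
  have hw := eq_zero_of_linearIndependent_left hcomm hα _ (fun k => (b k : A))
    (fun k => ∑ i, d i k • z i) (b.linearIndependent.map' _ V.ker_subtype) (by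
      rw [← h]
      simp only [map_sum, map_smul, Finset.mul_sum, mul_smul_comm, hb, Finset.sum_mul,
        smul_mul_assoc]
      exact Finset.sum_comm)
  intro i
  rw [hb i]
  refine Finset.sum_eq_zero fun k _ => ?_
  rw [Fintype.linearIndependent_iff.1 hz (fun i => d i k) (congrFun hw k) i, zero_smul]

end Vale.Agent.P101.Limit
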