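import Mathlib

/-!
The inductive limit of an injective system of C⋆-algebras indexed by `ℕ`, as a C⋆-algebra, with
its universal property.
-/

set_option maxSynthPendingDepth 3

open scoped ComplexOrder
open UniformSpace

noncomputable section

universe u v

namespace Vale.Agent.P101.Limit

/-- An injective system of C⋆-algebras. -/
structure Sys where
  /-- The stages. -/
  D : ℕ → Type u
  /-- Their structures. -/
  [inst : ∀ j, CStarAlgebra (D j)]
  /-- The connecting maps. -/
  conn : ∀ j, D j →⋆ₐ[ℂ] D (j + 1)
  injective : ∀ j, Function.Injective (conn j)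

namespace Sys

variable (S : Sys.{u})

instance instCStarAlgebraStage (j : ℕ) : CStarAlgebra (S.D j) := S.inst j

/-- The composites of the connecting maps. -/
def trans {i j : ℕ} (h : i ≤ j) : S.D i →⋆ₐ[ℂ] S.D j :=
  Nat.leRec (motive := fun j _ => S.D i →⋆ₐ[ℂ] S.D j) (StarAlgHom.id ℂ _)
    (fun k _ φ => (S.conn k).comp φ) h

theorem trans_refl {i : ℕ} (x : S.D i) : S.trans (le_refl i) x = x :=
  congrArg (fun φ : S.D i →⋆ₐ[ℂ] S.D i => φ x)
    (Nat.leRec_self (motive := fun j _ => S.D i →⋆ₐ[ℂ] S.D j) _
      (fun k _ φ => (S.conn k).comp φ))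

theorem trans_succ {i j : ℕ} (h : i ≤ j) (x : S.D i) :
    S.trans (h.trans (Nat.le_succ j)) x = S.conn j (S.trans h x) :=
  congrArg (fun φ : S.D i →⋆ₐ[ℂ] S.D (j + 1) => φ x)
    (Nat.leRec_succ (motive := fun j _ => S.D i →⋆ₐ[ℂ] S.D j) _
      (fun k _ φ => (S.conn k).comp φ) h)

theorem trans_trans {i j k : ℕ} (hij : i ≤ j) (hjk : j ≤ k) (x : S.D i) :
    S.trans hjk (S.trans hij x) = S.trans (hij.trans hjk) x := by
  induction k, hjk using Nat.le_induction with
  | base => rw [S.trans_refl]
  | succ k hk ih => rw [S.trans_succ hk, ih, S.trans_succ (hij.trans hk)]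

theorem trans_injective {i j : ℕ} (h : i ≤ j) : Function.Injective (S.trans h) := by
  induction j, h using Nat.le_induction with
  | base => exact fun x y e => by rwa [S.trans_refl, S.trans_refl] at e
  | succ k hk ih =>
    exact fun x y e => ih (S.injective k (by rwa [S.trans_succ hk, S.trans_succ hk] at e))

theorem norm_trans {i j : ℕ} (h : i ≤ j) (x : S.D i) : ‖S.trans h x‖ = ‖x‖ :=
  NonUnitalStarAlgHom.norm_map (S.trans h) (S.trans_injective h) x

/-- The system of composites. -/
abbrev sys : ∀ i j, i ≤ j → (S.D i →⋆ₐ[ℂ] S.D j) := fun _ _ h => S.trans h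

instance : DirectedSystem S.D (S.sys · · ·) where
  map_self _ x := S.trans_refl x
  map_map _ _ _ hij hjk x := S.trans_trans hij hjk x

/-- The algebraic inductive limit. -/
abbrev Pre : Type u := DirectLimit S.D S.sys

instance instRingPre : Ring S.Pre := inferInstance
instance instAlgebraPre : Algebra ℂ S.Pre := inferInstance
instance instStarPre : InvolutiveStar S.Pre := inferInstance

/-- The norm on the algebraic limit. -/
def preNorm : RingNorm S.Pre where
  toFun := DirectLimit.lift S.sys (fun _ x => ‖x‖) fun _ _ h x => (S.norm_trans h x).symm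
  map_zero' := by
    rw [DirectLimit.zero_def (f := S.sys) 0, DirectLimit.lift_def]
    exact norm_zero
  add_le' := DirectLimit.induction₂ _ fun i x y => by
    rw [DirectLimit.add_def, DirectLimit.lift_def, DirectLimit.lift_def, DirectLimit.lift_def]
    exact norm_add_le x y
  neg' := DirectLimit.induction _ fun i x => by
    rw [DirectLimit.neg_def, DirectLimit.lift_def, DirectLimit.lift_def]
    exact norm_neg x
  mul_le' := DirectLimit.induction₂ _ fun i x y => by
    rw [DirectLimit.mul_def, DirectLimit.lift_def, DirectLimit.lift_def, DirectLimit.lift_def]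
    exact norm_mul_le x y
  eq_zero_of_map_eq_zero' := DirectLimit.induction _ fun i x hx => by
    rw [DirectLimit.lift_def, norm_eq_zero] at hx
    rw [DirectLimit.zero_def (f := S.sys) i]
    dsimp only at hx; rw [hx]

instance : NormedRing S.Pre := RingNorm.toNormedRing S.preNorm

theorem norm_mk (i : ℕ) (x : S.D i) : ‖(⟦⟨i, x⟩⟧ : S.Pre)‖ = ‖x‖ := rfl

instance : NormedAlgebra ℂ S.Pre where
  norm_smul_le c := DirectLimit.induction _ fun i x => by
    rw [DirectLimit.smul_def, norm_mk, norm_mk]
    exact norm_smul_le c x

instance : StarRing S.Pre where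
  star_involutive := star_involutive
  star_mul := DirectLimit.induction₂ _ fun i x y => by
    simp only [DirectLimit.mul_def, DirectLimit.star_def, star_mul]
  star_add := DirectLimit.induction₂ _ fun i x y => by
    simp only [DirectLimit.add_def, DirectLimit.star_def, star_add]

instance : StarModule ℂ S.Pre where
  star_smul c := DirectLimit.induction _ fun i x => by
    simp only [DirectLimit.smul_def, DirectLimit.star_def, star_smul]

instance : CStarRing S.Pre where
  norm_mul_self_le := DirectLimit.induction _ fun i x => by
    rw [DirectLimit.star_def, DirectLimit.mul_def, norm_mk, norm_mk]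
    exact CStarRing.norm_mul_self_le x

/-- The inductive limit. -/
abbrev Z : Type u := Completion S.Pre

instance : Star S.Z := ⟨Completion.map star⟩

theorem star_coe (x : S.Pre) : star (x : S.Z) = ((star x : S.Pre) : S.Z) :=
  Completion.map_coe (AddMonoidHomClass.isometry_of_norm (starAddEquiv : S.Pre ≃+ S.Pre)
    (fun y => norm_star y)).uniformContinuous x

theorem continuous_star : Continuous (star : S.Z → S.Z) := Completion.continuous_map

instance : StarRing S.Z where
  star_involutive x := Completion.induction_on x
    (isClosed_eq (S.continuous_star.comp S.continuous_star) continuous_id) fun a => by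
      rw [S.star_coe, S.star_coe, star_star]
  star_mul x y := by
    induction x, y using Completion.induction_on₂ with
    | hp =>
      exact isClosed_eq (S.continuous_star.comp (continuous_fst.mul continuous_snd))
        ((S.continuous_star.comp continuous_snd).mul (S.continuous_star.comp continuous_fst))
    | ih a b => rw [← Completion.coe_mul, S.star_coe, S.star_coe, S.star_coe, star_mul,
        Completion.coe_mul]
  star_add x y := by
    induction x, y using Completion.induction_on₂ with
    | hp =>
      exact isClosed_eq (S.continuous_star.comp (continuous_fst.add continuous_snd))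
        ((S.continuous_star.comp continuous_fst).add (S.continuous_star.comp continuous_snd))
    | ih a b => rw [← Completion.coe_add, S.star_coe, S.star_coe, S.star_coe, star_add,
        Completion.coe_add]

instance : CStarRing S.Z where
  norm_mul_self_le x := Completion.induction_on x
    (isClosed_le (continuous_norm.mul continuous_norm)
      (continuous_norm.comp (S.continuous_star.mul continuous_id)))
    fun a => by
      rw [S.star_coe, ← Completion.coe_mul, Completion.norm_coe, Completion.norm_coe]
      exact CStarRing.norm_mul_self_le a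

instance : NormedAlgebra ℂ S.Z where
  norm_smul_le c x := Completion.induction_on x (isClosed_le (continuous_norm.comp (continuous_const_smul c))
      (continuous_const.mul continuous_norm)) fun a => by
    rw [← Completion.coe_smul, Completion.norm_coe, Completion.norm_coe]
    exact norm_smul_le c a

instance : StarModule ℂ S.Z where
  star_smul c x := Completion.induction_on x
    (isClosed_eq (S.continuous_star.comp (continuous_const_smul c))
      ((continuous_const_smul (star c)).comp S.continuous_star)) fun a => by
      rw [← Completion.coe_smul, S.star_coe, S.star_coe, star_smul, Completion.coe_smul]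

instance : CStarAlgebra S.Z where

/-- The canonical map of a stage. -/
def incl (j : ℕ) : S.D j →⋆ₐ[ℂ] S.Z where
  toFun x := ((⟦⟨j, x⟩⟧ : S.Pre) : S.Z)
  map_one' := by rw [← DirectLimit.one_def, Completion.coe_one]
  map_mul' x y := by rw [← DirectLimit.mul_def, Completion.coe_mul]
  map_zero' := by rw [← DirectLimit.zero_def, Completion.coe_zero]
  map_add' x y := by rw [← DirectLimit.add_def, Completion.coe_add]
  commutes' c := by
    rw [Completion.algebraMap_def, DirectLimit.algebraMap_def (f := S.sys) j c]
  map_star' x := by rw [S.star_coe, DirectLimit.star_def]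

theorem incl_trans {i j : ℕ} (h : i ≤ j) (x : S.D i) : S.incl j (S.trans h x) = S.incl i x :=
  congrArg (fun z : S.Pre => (z : S.Z)) (DirectLimit.eq_of_le (f := S.sys) ⟨i, x⟩ j h).symm

theorem incl_conn (j : ℕ) (x : S.D j) : S.incl (j + 1) (S.conn j x) = S.incl j x := by
  have h := S.incl_trans (Nat.le_succ j) x
  have e : S.trans (Nat.le_succ j) x = S.conn j x :=
    (S.trans_succ le_rfl x).trans (congrArg (S.conn j) (S.trans_refl x))
  rwa [e] at h

theorem norm_incl (j : ℕ) (x : S.D j) : ‖S.incl j x‖ = ‖x‖ :=
  (Completion.norm_coe _).trans (S.norm_mk j x)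

theorem incl_injective (j : ℕ) : Function.Injective (S.incl j) := by
  refine (injective_iff_map_eq_zero _).2 fun x hx => ?_
  rw [← norm_eq_zero, ← S.norm_incl, hx, norm_zero]

theorem range_incl_subset (j : ℕ) : Set.range (S.incl j) ⊆ Set.range (S.incl (j + 1)) := by
  rintro _ ⟨x, rfl⟩
  exact ⟨_, S.incl_conn j x⟩

theorem exists_incl (a : S.Pre) : ∃ j x, S.incl j x = (a : S.Z) := by
  obtain ⟨j, x, rfl⟩ := DirectLimit.exists_eq_mk _ a
  exact ⟨j, x, rfl⟩

theorem exists_near (z : S.Z) {ε : ℝ} (hε : 0 < ε) : ∃ j x, ‖z - S.incl j x‖ < ε := by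
  obtain ⟨y, hy, ha⟩ := Metric.mem_closure_iff.1 (Completion.denseRange_coe z) ε hε
  obtain ⟨a, rfl⟩ := hy
  obtain ⟨j, x, e⟩ := S.exists_incl a
  exact ⟨j, x, by rwa [e, ← dist_eq_norm]⟩

theorem dense_iUnion_range : Dense (⋃ j, Set.range (S.incl j)) := fun z => by
  refine Metric.mem_closure_iff.2 fun ε hε => ?_
  obtain ⟨j, x, hx⟩ := S.exists_near z hε
  exact ⟨_, Set.mem_iUnion.2 ⟨j, x, rfl⟩, by rwa [dist_eq_norm]⟩

/-- The universal map of a compatible family. -/
def lift {B : Type v} [CStarAlgebra B] (g : ∀ j, S.D j →⋆ₐ[ℂ] B)
    (hg : ∀ j x, g (j + 1) (S.conn j x) = g j x) : S.Z →⋆ₐ[ℂ] B :=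
  have htr : ∀ i j (h : i ≤ j) (x : S.D i), g j (S.trans h x) = g i x := fun i j h x => by
    induction j, h using Nat.le_induction with
    | base => rw [S.trans_refl]
    | succ k hk ih => rw [S.trans_succ hk, hg, ih]
  let g₀ : S.Pre →+ B :=
    { toFun := DirectLimit.lift S.sys (fun j x => g j x) fun i j h x => (htr i j h x).symm
      map_zero' := by rw [DirectLimit.zero_def (f := S.sys) 0, DirectLimit.lift_def]; exact map_zero _
      map_add' := DirectLimit.induction₂ _ fun i x y => by
        rw [DirectLimit.add_def, DirectLimit.lift_def, DirectLimit.lift_def, DirectLimit.lift_def]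
        exact map_add _ _ _ }
  have hle : ∀ a, ‖g₀ a‖ ≤ ‖a‖ := DirectLimit.induction _ fun i x =>
    (NonUnitalStarAlgHom.norm_apply_le (g i) x).trans_eq (S.norm_mk i x).symm
  have hu : UniformContinuous g₀ := (AddMonoidHomClass.lipschitz_of_bound g₀ 1 fun a => by
    rw [one_mul]; exact hle a).uniformContinuous
  have hcoe : ∀ a : S.Pre, Completion.extension g₀ (a : S.Z) = g₀ a :=
    Completion.extension_coe hu
  have hc : Continuous (Completion.extension g₀ : S.Z → B) := Completion.continuous_extension
  { toFun := Completion.extension g₀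
    map_one' := by
      rw [← Completion.coe_one, hcoe, DirectLimit.one_def (f := S.sys) 0]
      exact map_one (g 0)
    map_mul' := fun x y => by
      induction x, y using Completion.induction_on₂ with
      | hp =>
        exact isClosed_eq (hc.comp (continuous_fst.mul continuous_snd))
          ((hc.comp continuous_fst).mul (hc.comp continuous_snd))
      | ih a b =>
        rw [← Completion.coe_mul, hcoe, hcoe, hcoe]
        induction a, b using DirectLimit.induction₂ with
        | ih i x y => rw [DirectLimit.mul_def]; exact map_mul (g i) x y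
    map_zero' := by rw [← Completion.coe_zero, hcoe, map_zero]
    map_add' := fun x y => by
      induction x, y using Completion.induction_on₂ with
      | hp =>
        exact isClosed_eq (hc.comp (continuous_fst.add continuous_snd))
          ((hc.comp continuous_fst).add (hc.comp continuous_snd))
      | ih a b => rw [← Completion.coe_add, hcoe, hcoe, hcoe, map_add]
    commutes' := fun c => by
      rw [Completion.algebraMap_def, hcoe, DirectLimit.algebraMap_def (f := S.sys) 0 c]
      exact AlgHomClass.commutes (g 0) c
    map_star' := fun x => Completion.induction_on x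
      (isClosed_eq (hc.comp S.continuous_star) (ContinuousStar.continuous_star.comp hc)) fun a => by
        rw [S.star_coe, hcoe, hcoe]
        induction a using DirectLimit.induction with
        | ih i x => rw [DirectLimit.star_def]; exact map_star (g i) x }

theorem lift_incl {B : Type v} [CStarAlgebra B] (g : ∀ j, S.D j →⋆ₐ[ℂ] B)
    (hg : ∀ j x, g (j + 1) (S.conn j x) = g j x) (j : ℕ) (x : S.D j) :
    S.lift g hg (S.incl j x) = g j x := by
  refine Completion.extension_coe ?_ _
  exact (AddMonoidHomClass.lipschitz_of_bound _ 1 (DirectLimit.induction _ fun i y => by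
    rw [one_mul]
    exact (NonUnitalStarAlgHom.norm_apply_le (g i) y).trans_eq (S.norm_mk i y).symm)
      ).uniformContinuous

end Sys

end Vale.Agent.P101.Limit
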